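import Vale.Agent.P061.Iter

/-! The strong thin tree conjecture. -/

namespace Vale.Agent.Results.P061.ThinTree

open Vale.Agent.P061

/-- The number of edge copies in `F` with exactly one endpoint in `S`; the multigraph has
vertex type `V`, a type `E` of edge copies, and `ends e` is the unordered pair of endpoints. -/
noncomputable def cutSize {V E : Type} (ends : E → Sym2 V) (F : Set E) (S : Set V) : ℕ :=
  {e ∈ F | ∃ u ∈ S, ∃ v, v ∉ S ∧ ends e = s(u, v)}.ncard

/-- `T` is a set of `n - 1` edge copies forming a tree on all vertices. -/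
def IsSpanningTree {V E : Type} (ends : E → Sym2 V) (T : Set E) : Prop :=
  T.ncard + 1 = Nat.card V ∧ (SimpleGraph.fromEdgeSet (ends '' T)).IsTree

theorem result : ∃ C : ℝ, ∀ (V E : Type) [Finite V] [Finite E] (ends : E → Sym2 V),
    (∀ e, ¬(ends e).IsDiag) → 2 ≤ Nat.card V → ∀ k : ℕ, 1 ≤ k →
    (∀ S : Set V, S.Nonempty → S ≠ Set.univ → k ≤ cutSize ends Set.univ S) →
    ∃ T : Set E, IsSpanningTree ends T ∧ ∀ S : Set V, S.Nonempty → S ≠ Set.univ →
      (cutSize ends T S : ℝ) ≤ C / k * cutSize ends Set.univ S := by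
  classical
  obtain ⟨A, hA⟩ := thin_sub
  refine ⟨2 * A, fun V E _ _ ends hloop hn k hk hconn => ?_⟩
  haveI := Fintype.ofFinite V
  haveI := Fintype.ofFinite E
  haveI : Nontrivial V := Finite.one_lt_card_iff_nontrivial.1 hn
  have hex : ∀ e, ∃ p : V × V, ends e = s(p.1, p.2) := fun e => by
    induction ends e using Sym2.ind with
    | _ a b => exact ⟨(a, b), rfl⟩
  choose p hp using hex
  let s : E → V := fun e => (p e).1
  let t : E → V := fun e => (p e).2
  have hst : ∀ e, ends e = s(s e, t e) := hp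
  have hne : ∀ e, s e ≠ t e := fun e h => hloop e (by rw [hst, Sym2.mk_isDiag_iff]; exact h)
  have hcut : ∀ (F : Finset E) (S : Finset V),
      cutSize ends F S = (cr s t F Finset.univ (· ∈ S)).card := fun F S => by
    rw [cutSize, ← Set.ncard_coe_finset]
    congr 1
    ext e
    simp only [Set.mem_setOf_eq, Finset.mem_coe, mem_cr, Finset.mem_univ, true_and, hst,
      Sym2.eq_iff, ne_eq, eq_iff_iff]
    refine and_congr_right fun _ => ⟨?_, fun h => ?_⟩
    · rintro ⟨u, hu, v, hv, ⟨rfl, rfl⟩ | ⟨rfl, rfl⟩⟩ <;> tauto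
    · by_cases a : s e ∈ S
      · exact ⟨_, a, t e, by tauto, Or.inl ⟨rfl, rfl⟩⟩
      · exact ⟨t e, by tauto, _, a, Or.inr ⟨rfl, rfl⟩⟩
  have hk0 : (0 : ℝ) < k := by exact_mod_cast hk
  obtain ⟨E1, -, ⟨θ, hθ, h1⟩, h2⟩ := hA V E s t hne (k / 2) (by positivity) Finset.univ
    (pc_of_conn hk0.le fun S a b => by
      rw [← hcut, Finset.coe_univ, Nat.cast_le]
      exact hconn S a fun h => b (Finset.coe_eq_univ.1 h))
  have hG : (SimpleGraph.fromEdgeSet (ends '' E1)).Connected := by
    have h3 := h1.any (SimpleGraph.fromEdgeSet (ends '' E1)).connectedComponentMk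
    have h4 : cr s t E1 Finset.univ
        (SimpleGraph.fromEdgeSet (ends '' E1)).connectedComponentMk = ∅ := by
      refine Finset.eq_empty_of_forall_notMem fun e he => ?_
      rw [mem_cr] at he
      exact he.2.2.2 (SimpleGraph.ConnectedComponent.connectedComponentMk_eq_of_adj
        ⟨⟨e, he.1, hst e⟩, hne e⟩)
    rw [h4, Finset.card_empty, Nat.cast_zero] at h3
    have h5 : (Finset.univ.image
        (SimpleGraph.fromEdgeSet (ends '' E1)).connectedComponentMk).card ≤ 1 := by
      have := nonpos_of_mul_nonpos_right h3 hθ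
      exact_mod_cast sub_nonpos.1 this
    exact ⟨fun u v => SimpleGraph.ConnectedComponent.exact (Finset.card_le_one.1 h5 _
      (Finset.mem_image_of_mem _ (Finset.mem_univ u)) _
      (Finset.mem_image_of_mem _ (Finset.mem_univ v)))⟩
  obtain ⟨H, hle, hH⟩ := hG.exists_isTree_le
  have h6 : H.edgeSet ⊆ ends '' E1 := fun z hz => by
    have := SimpleGraph.edgeSet_mono hle hz
    rw [SimpleGraph.edgeSet_fromEdgeSet] at this
    exact this.1
  obtain ⟨T, hT, hbij⟩ := Set.SurjOn.exists_bijOn_subset (f := ends) (s := (E1 : Set E)) h6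
  refine ⟨T, ⟨?_, ?_⟩, fun S a b => ?_⟩
  · rw [← Set.ncard_image_of_injOn hbij.injOn, hbij.image_eq]
    exact (SimpleGraph.isTree_iff_connected_and_card.1 hH).2
  · rw [hbij.image_eq, SimpleGraph.fromEdgeSet_edgeSet]
    exact hH
  · have h7 := h2 S.toFinset (Set.toFinset_nonempty.2 a) fun h => b (Set.toFinset_eq_univ.1 h)
    rw [← hcut, ← hcut, Set.coe_toFinset, Finset.coe_univ] at h7
    have h8 : (cutSize ends T S : ℝ) ≤ cutSize ends E1 S :=
      Nat.cast_le.2 (Set.ncard_le_ncard fun e he => ⟨hT he.1, he.2⟩)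
    rw [div_mul_eq_mul_div, le_div_iff₀ hk0]
    nlinarith

end Vale.Agent.Results.P061.ThinTree
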